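import Mathlib.NumberTheory.GaussSum
import Mathlib.NumberTheory.LegendreSymbol.JacobiSymbol
import Mathlib.NumberTheory.LegendreSymbol.QuadraticChar.GaussSum
import Mathlib.Analysis.SpecialFunctions.Complex.CircleAddChar

/-!
P022, block [GS] (helper866): the Gauss sum of a binary quadratic form of odd discriminant `-D`
modulo a prime `ℓ` prime to `2 D`: it is `(ℓ / D) ℓ`.
-/

set_option linter.all false

open Finset Complex

open scoped NumberTheorySymbols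

namespace Vale.Agent.P022.H866

section field

variable {F : Type*} [Field F] [Fintype F] [DecidableEq F]

/-- the quadratic Gauss sum -/
theorem sum_sq {ψ : AddChar F ℂ} (hψ : ψ.IsPrimitive) (hF : ringChar F ≠ 2) {b : F}
    (hb : b ≠ 0) :
    ∑ u : F, ψ (b * u ^ 2) =
      (quadraticChar F b : ℂ) * gaussSum ((quadraticChar F).ringHomComp (Int.castRingHom ℂ)) ψ := by
  have h1 : ∑ u : F, ψ (b * u ^ 2) =
      ∑ t : F, ((quadraticChar F t + 1 : ℤ) : ℂ) * ψ (b * t) := by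
    have h2 : ∀ t : F, ((quadraticChar F t + 1 : ℤ) : ℂ) * ψ (b * t) =
        ∑ u ∈ univ.filter (fun u : F => u ^ 2 = t), ψ (b * u ^ 2) := by
      intro t
      have h3 : ∑ u ∈ univ.filter (fun u : F => u ^ 2 = t), ψ (b * u ^ 2) =
          ∑ u ∈ univ.filter (fun u : F => u ^ 2 = t), ψ (b * t) := by
        refine Finset.sum_congr rfl fun u hu => ?_
        rw [(Finset.mem_filter.1 hu).2]
      rw [h3, Finset.sum_const, nsmul_eq_mul]
      congr 1
      have h4 := quadraticChar_card_sqrts hF t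
      have h5 : {x : F | x ^ 2 = t}.toFinset = univ.filter (fun u : F => u ^ 2 = t) := by
        ext x; simp
      rw [h5] at h4
      rw [← h4]
      simp
    rw [Finset.sum_congr rfl fun t _ => h2 t]
    exact (Finset.sum_fiberwise (s := univ) (g := fun u : F => u ^ 2)
      (f := fun u => ψ (b * u ^ 2))).symm
  rw [h1]
  have h6 : ∑ t : F, ψ (b * t) = 0 := by
    have h7 := AddChar.sum_mulShift (ψ := ψ) (b := b) hψ
    rw [if_neg hb, Nat.cast_zero] at h7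
    rw [← h7]
    exact Finset.sum_congr rfl fun t _ => by rw [mul_comm]
  have h8 : ∑ t : F, ((quadraticChar F t + 1 : ℤ) : ℂ) * ψ (b * t) =
      ∑ t : F, ((quadraticChar F t : ℤ) : ℂ) * ψ (b * t) := by
    have h9 : ∀ t : F, ((quadraticChar F t + 1 : ℤ) : ℂ) * ψ (b * t) =
        ((quadraticChar F t : ℤ) : ℂ) * ψ (b * t) + ψ (b * t) := by
      intro t; push_cast; ring
    rw [Finset.sum_congr rfl fun t _ => h9 t, Finset.sum_add_distrib, h6, add_zero]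
  rw [h8]
  set χ : MulChar F ℂ := (quadraticChar F).ringHomComp (Int.castRingHom ℂ) with hχ
  have h10 := gaussSum_mulShift χ ψ (Units.mk0 b hb)
  have h11 : χ (Units.mk0 b hb : Fˣ) = (quadraticChar F b : ℂ) := rfl
  have h12 : (quadraticChar F b : ℂ) * (quadraticChar F b : ℂ) = 1 := by
    have := quadraticChar_sq_one hb
    rw [← Int.cast_mul, ← pow_two, this, Int.cast_one]
  have h13 : gaussSum χ (ψ.mulShift (Units.mk0 b hb : Fˣ)) =
      ∑ t : F, ((quadraticChar F t : ℤ) : ℂ) * ψ (b * t) := rfl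
  rw [← h13, ← h10, h11, ← mul_assoc, h12, one_mul]

/-- the Gauss sum of a binary form -/
theorem sum_form {ψ : AddChar F ℂ} (hψ : ψ.IsPrimitive) (hF : ringChar F ≠ 2) {p q r h D : F}
    (hD : 4 * p * r - q ^ 2 = D) (hp : p ≠ 0) (hh : h ≠ 0) (hl : D ≠ 0) :
    ∑ x : F × F, ψ (h * (p * x.1 ^ 2 + q * x.1 * x.2 + r * x.2 ^ 2)) =
      (quadraticChar F (-D) : ℂ) * Fintype.card F := by
  have h2 : (2 : F) ≠ 0 := Ring.two_ne_zero hF
  have h4 : (4 : F) ≠ 0 := by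
    have : (4 : F) = 2 * 2 := by norm_num
    rw [this]; exact mul_ne_zero h2 h2
  set a : F := h / (4 * p) with ha
  have ha0 : a ≠ 0 := div_ne_zero hh (mul_ne_zero h4 hp)
  let e : F × F ≃ F × F :=
    { toFun := fun x => (2 * p * x.1 + q * x.2, x.2)
      invFun := fun y => ((y.1 - q * y.2) / (2 * p), y.2)
      left_inv := fun x => by
        refine Prod.ext ?_ rfl
        change (2 * p * x.1 + q * x.2 - q * x.2) / (2 * p) = x.1
        have : (2 * p : F) ≠ 0 := mul_ne_zero h2 hp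
        field_simp
        ring
      right_inv := fun y => by
        refine Prod.ext ?_ rfl
        change 2 * p * ((y.1 - q * y.2) / (2 * p)) + q * y.2 = y.1
        have : (2 * p : F) ≠ 0 := mul_ne_zero h2 hp
        field_simp
        ring }
  have h5 : ∀ x : F × F, ψ (h * (p * x.1 ^ 2 + q * x.1 * x.2 + r * x.2 ^ 2)) =
      (fun y : F × F => ψ (a * y.1 ^ 2) * ψ ((a * D) * y.2 ^ 2)) (e x) := by
    intro x
    change _ = ψ (a * (2 * p * x.1 + q * x.2) ^ 2) * ψ ((a * D) * x.2 ^ 2)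
    rw [← AddChar.map_add_eq_mul]
    congr 1
    rw [ha, ← hD]
    field_simp
    ring
  refine (Finset.sum_congr rfl fun x _ => h5 x).trans ((Equiv.sum_comp e
    (fun y : F × F => ψ (a * y.1 ^ 2) * ψ ((a * D) * y.2 ^ 2))).trans ?_)
  rw [Fintype.sum_prod_type]
  have h6 : ∀ u : F, ∑ v : F, ψ (a * u ^ 2) * ψ ((a * D) * v ^ 2) =
      ψ (a * u ^ 2) * ∑ v : F, ψ ((a * D) * v ^ 2) := fun u => by rw [Finset.mul_sum]
  rw [Finset.sum_congr rfl fun u _ => h6 u, ← Finset.sum_mul, sum_sq hψ hF ha0,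
    sum_sq hψ hF (mul_ne_zero ha0 hl)]
  set χ : MulChar F ℂ := (quadraticChar F).ringHomComp (Int.castRingHom ℂ) with hχ
  have hχ1 : χ ≠ 1 := by
    intro hcon
    apply quadraticChar_ne_one hF
    ext t
    have := congrArg (fun χ' : MulChar F ℂ => χ' (t : F)) hcon
    have h7 : ((quadraticChar F (t : F) : ℤ) : ℂ) = 1 := by
      have h8 : χ (t : F) = 1 := by rw [hcon]; simp
      exact h8
    have h9 : (quadraticChar F (t : F) : ℤ) = 1 := by exact_mod_cast h7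
    rw [h9]; simp
  have hχ2 : χ.IsQuadratic := (quadraticChar_isQuadratic F).comp _
  have h10 := gaussSum_sq hχ1 hχ2 hψ
  have h11 : χ (-1) = (quadraticChar F (-1) : ℂ) := rfl
  have h12 : (quadraticChar F a : ℂ) * (quadraticChar F a : ℂ) = 1 := by
    have := quadraticChar_sq_one ha0
    rw [← Int.cast_mul, ← pow_two, this, Int.cast_one]
  have h13 : (quadraticChar F (-D) : ℂ) = (quadraticChar F (-1) : ℂ) * (quadraticChar F D : ℂ) := by
    rw [← Int.cast_mul, ← map_mul, neg_one_mul]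
  have h14 : (quadraticChar F (a * D) : ℂ) = (quadraticChar F a : ℂ) * (quadraticChar F D : ℂ) := by
    rw [← Int.cast_mul, ← map_mul]
  rw [h11] at h10
  rw [h13, h14]
  calc _ = ((quadraticChar F a : ℂ) * (quadraticChar F a : ℂ)) * (quadraticChar F D : ℂ) *
        (gaussSum χ ψ) ^ 2 := by ring
    _ = _ := by rw [h12, h10]; ring

end field

/-- the reciprocity -/
theorem recip {ℓ D : ℕ} [Fact ℓ.Prime] (hℓ : ℓ ≠ 2) {p q r : ℤ} (hD : 4 * p * r - q ^ 2 = D)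
    (hDo : Odd D) : J(-(D : ℤ) | ℓ) = J(ℓ | D) := by
  have hℓo : Odd ℓ := (Fact.out : ℓ.Prime).odd_of_ne_two hℓ
  have hD4 : D % 4 = 3 := by
    have hqo : Odd q := by
      have h1 : Odd ((4 * p * r - q ^ 2 : ℤ)) := by rw [hD]; exact_mod_cast hDo
      have h2 : Odd (q ^ 2) := by
        have h3 : q ^ 2 = 4 * p * r - (4 * p * r - q ^ 2) := by ring
        rw [h3]
        exact Even.sub_odd ⟨2 * p * r, by ring⟩ h1
      exact (Int.odd_pow' two_ne_zero).1 h2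
    obtain ⟨t, ht⟩ := hqo
    have h4 : (D : ℤ) = 4 * (p * r - t * t - t) - 1 := by rw [← hD, ht]; ring
    omega
  rw [jacobiSym.neg _ hℓo]
  rcases Nat.odd_mod_four_iff.1 (Nat.odd_iff.1 hℓo) with h | h
  · rw [jacobiSym.quadratic_reciprocity_one_mod_four h hDo, ZMod.χ₄_nat_one_mod_four h, one_mul]
  · rw [jacobiSym.quadratic_reciprocity_three_mod_four h hD4, ZMod.χ₄_nat_three_mod_four h]
    ring

/-- **[GS]** -/
theorem gs' (ℓ : ℕ) [Fact ℓ.Prime] (hℓ : ℓ ≠ 2) (p q r h : ℤ) (D : ℕ)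
    (hD : 4 * p * r - q ^ 2 = D) (hDo : Odd D) (hp : ¬ (ℓ : ℤ) ∣ p) (hh : ¬ (ℓ : ℤ) ∣ h)
    (hl : ¬ (ℓ : ℤ) ∣ D) :
    ∑ x : Fin 2 → ZMod ℓ, cexp (2 * Real.pi * I *
      ((h * (p * ((x 0).val : ℤ) ^ 2 + q * ((x 0).val : ℤ) * ((x 1).val : ℤ) +
        r * ((x 1).val : ℤ) ^ 2) : ℤ) : ℂ) / ℓ) = (J(ℓ | D) : ℂ) * ℓ := by
  have hc : ∀ z : ℤ, ¬ (ℓ : ℤ) ∣ z → ((z : ℤ) : ZMod ℓ) ≠ 0 := fun z hz h0 =>
    hz ((ZMod.intCast_zmod_eq_zero_iff_dvd z ℓ).1 h0)
  have hF : ringChar (ZMod ℓ) ≠ 2 := by rwa [ZMod.ringChar_zmod_n]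
  have hD' : (4 : ZMod ℓ) * (p : ZMod ℓ) * (r : ZMod ℓ) - (q : ZMod ℓ) ^ 2 = ((D : ℤ) : ZMod ℓ) := by
    rw [← hD]; push_cast; ring
  have h1 := sum_form (ZMod.isPrimitive_stdAddChar ℓ) hF hD' (hc p hp) (hc h hh) (hc _ hl)
  have h2 : ∀ x : Fin 2 → ZMod ℓ, cexp (2 * Real.pi * I *
      ((h * (p * ((x 0).val : ℤ) ^ 2 + q * ((x 0).val : ℤ) * ((x 1).val : ℤ) +
        r * ((x 1).val : ℤ) ^ 2) : ℤ) : ℂ) / ℓ) =
      (fun y : ZMod ℓ × ZMod ℓ => ZMod.stdAddChar ((h : ZMod ℓ) *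
        ((p : ZMod ℓ) * y.1 ^ 2 + (q : ZMod ℓ) * y.1 * y.2 + (r : ZMod ℓ) * y.2 ^ 2)))
        (finTwoArrowEquiv (ZMod ℓ) x) := by
    intro x
    rw [← ZMod.stdAddChar_coe]
    change ZMod.stdAddChar _ = ZMod.stdAddChar ((h : ZMod ℓ) *
        ((p : ZMod ℓ) * (x 0) ^ 2 + (q : ZMod ℓ) * (x 0) * (x 1) + (r : ZMod ℓ) * (x 1) ^ 2))
    congr 1
    push_cast
    simp only [ZMod.natCast_val, ZMod.cast_id', id_eq]
  refine (Finset.sum_congr rfl fun x _ => h2 x).trans ((Equiv.sum_comp (finTwoArrowEquiv (ZMod ℓ))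
    (fun y : ZMod ℓ × ZMod ℓ => ZMod.stdAddChar ((h : ZMod ℓ) *
        ((p : ZMod ℓ) * y.1 ^ 2 + (q : ZMod ℓ) * y.1 * y.2 + (r : ZMod ℓ) * y.2 ^ 2)))).trans ?_)
  rw [h1, ZMod.card]
  congr 1
  have h3 : (quadraticChar (ZMod ℓ) (-((D : ℤ) : ZMod ℓ)) : ℤ) = J(-(D : ℤ) | ℓ) := by
    rw [← jacobiSym.legendreSym.to_jacobiSym, legendreSym]
    push_cast
    rfl
  rw [h3, recip hℓ hD hDo]

end Vale.Agent.P022.H866
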