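import Vale.Agent.P022.H138.Letters
import Vale.Agent.P022.H866.Gs

/-! P022, [GS] in the letters of helper138. -/

set_option linter.all false

namespace Vale.Agent.P022.H866

open Vale.Agent.P022.H138

theorem gs : GsStmt := by
  intro ℓ _ hℓ p q r h D hD hDo hp hh hl
  rw [← gs' ℓ hℓ p q r h D hD hDo hp hh hl]
  refine Finset.sum_congr rfl fun x _ => ?_
  unfold ee Qf rep
  rw [mul_div_assoc]

end Vale.Agent.P022.H866
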